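import Mathlib
import Vale.Agent.Lib.P248.helper37.Q2Defs

/-!
# P248 pool piece Q2AB-J9 (seat helper72): the lower bound for the parts of the polar

`polK_lower_of` is the induction on the dimension, with the six leaf statements it uses
(`adm_sec`, `vT_dim_zero`, `volume_posZ_ne_top`, `polK_zero`, `polK_count`, `polK_piece`)
taken as hypotheses, so that it can be combined with any copy of those leaves.
-/

open MeasureTheory Set

namespace Vale.Agent.Lib.P248.H72

open Vale.Agent.Lib.P248.H37 Vale.Agent.Lib.P248.H37Q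

theorem ofReal_sum_le {ι : Type*} (s : Finset ι) (f : ι → ℝ) :
    ENNReal.ofReal (∑ i ∈ s, f i) ≤ ∑ i ∈ s, ENNReal.ofReal (f i) := by
  classical
  induction s using Finset.induction_on with
  | empty => simp
  | insert a s ha ih =>
    rw [Finset.sum_insert ha, Finset.sum_insert ha]
    exact ENNReal.ofReal_add_le.trans (add_le_add le_rfl ih)

theorem aux_zero (F v P : ℝ) (hF : 0 < F) (hP : 0 < P) :
    F * v * P / (((Nat.factorial 0 : ℕ) : ℝ) * F * P) = v := by
  rw [Nat.factorial_zero, Nat.cast_one, one_mul]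
  field_simp

theorem aux_succ (S N P : ℝ) (k : ℕ) :
    ((k + 1 : ℕ) : ℝ) * (S / ((((k + 1).factorial : ℕ) : ℝ) * N * P))
      = S / (((k.factorial : ℕ) : ℝ) * N * P) := by
  have h1 : (0 : ℝ) < ((k + 1 : ℕ) : ℝ) := by positivity
  have h2 : (0 : ℝ) < ((k.factorial : ℕ) : ℝ) := by positivity
  rw [Nat.factorial_succ]
  push_cast
  push_cast at h1
  by_cases hN : N = 0
  · rw [hN]; simp
  by_cases hP : P = 0
  · rw [hP]; simp
  field_simp

theorem aux_piece (a zi Q : ℝ) (k n : ℕ) (hzi : 0 < zi) :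
    a / (((k.factorial : ℕ) : ℝ) * (((n + 1).factorial : ℕ) : ℝ) * (zi * Q))
      = 1 / (((n : ℝ) + 1) * zi) * (a / (((k.factorial : ℕ) : ℝ) * ((n.factorial : ℕ) : ℝ) * Q)) := by
  have h1 : (0 : ℝ) < (n : ℝ) + 1 := by positivity
  have h2 : (0 : ℝ) < ((k.factorial : ℕ) : ℝ) := by positivity
  have h3 : (0 : ℝ) < ((n.factorial : ℕ) : ℝ) := by positivity
  rw [Nat.factorial_succ]
  push_cast
  by_cases hQ : Q = 0
  · rw [hQ]; simp
  field_simp

/-- The lower bound for the volume of the part of the polar with `k` negative coordinates, by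
induction on the dimension, from the six leaf statements it uses. -/
theorem polK_lower_of
    (adm_sec : ∀ {n : ℕ} {A : Set (Fin (n + 1) → ℝ)} {z : Fin (n + 1) → ℝ}, Adm A z →
      ∀ i : Fin (n + 1), Adm (sec A i) (fun k => z (i.succAbove k)))
    (vT_dim_zero : ∀ (A : Set (Fin 0 → ℝ)) (z : Fin 0 → ℝ), vT A z = 1)
    (volume_posZ_ne_top : ∀ {m : ℕ} {A : Set (Fin m → ℝ)} {z : Fin m → ℝ}, Adm A z →
      volume (posZ A z) ≠ ⊤)
    (polK_zero : ∀ {m : ℕ} (A : Set (Fin m → ℝ)) (z : Fin m → ℝ), polK A z 0 = posZ A z)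
    (polK_count : ∀ {m : ℕ} (A : Set (Fin m → ℝ)) (z : Fin m → ℝ) (k : ℕ),
      (k : ENNReal) * volume (polK A z k) = ∑ i, volume (polK A z k ∩ {y | y i < 0}))
    (polK_piece : ∀ {n : ℕ} {A : Set (Fin (n + 1) → ℝ)} {z : Fin (n + 1) → ℝ}, Adm A z →
      ∀ (i : Fin (n + 1)) (k : ℕ),
        ENNReal.ofReal (1 / (((n : ℝ) + 1) * z i)) *
            volume (polK (sec A i) (fun j => z (i.succAbove j)) k) ≤
          volume (polK A z (k + 1) ∩ {y | y i < 0})) :
    ∀ (m : ℕ) (A : Set (Fin m → ℝ)) (z : Fin m → ℝ), Adm A z → ∀ k : ℕ,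
    ENNReal.ofReal ((tree m A z).Om k / ((k.factorial : ℝ) * (m.factorial : ℝ) * ∏ i, z i)) ≤
      volume (polK A z k) := by
  intro m
  induction m with
  | zero =>
    intro A z h k
    cases k with
    | zero =>
      have hOm : (tree 0 A z).Om 0 = 1 := rfl
      have hv : volume (posZ A z) = ENNReal.ofReal (vT A z) :=
        (ENNReal.ofReal_toReal (volume_posZ_ne_top h)).symm
      rw [hOm, polK_zero A z, hv, vT_dim_zero A z]
      apply ENNReal.ofReal_le_ofReal
      apply le_of_eq
      rw [Nat.factorial_zero, Nat.cast_one, one_mul, one_mul, Finset.univ_eq_empty,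
        Finset.prod_empty, div_one]
    | succ k =>
      have hOm : (tree 0 A z).Om (k + 1) = 0 := rfl
      rw [hOm, zero_div, ENNReal.ofReal_zero]
      exact zero_le
  | succ n ih =>
    intro A z h k
    have hzpos : ∀ i, 0 < z i := h.pos
    have hprod : 0 < ∏ i, z i := Finset.prod_pos fun i _ => hzpos i
    cases k with
    | zero =>
      have hOm : (tree (n + 1) A z).Om 0
          = ((n + 1).factorial : ℝ) * vT A z * ∏ i, z i := rfl
      have hv : volume (posZ A z) = ENNReal.ofReal (vT A z) :=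
        (ENNReal.ofReal_toReal (volume_posZ_ne_top h)).symm
      have hf : (0 : ℝ) < ((n + 1).factorial : ℝ) := by positivity
      rw [hOm, polK_zero A z, hv, aux_zero _ _ _ hf hprod]
    | succ k =>
      have hOm : (tree (n + 1) A z).Om (k + 1)
          = ∑ i, (tree n (sec A i) (fun j => z (i.succAbove j))).Om k := rfl
      have hk1 : ((k + 1 : ℕ) : ENNReal) ≠ 0 := Nat.cast_ne_zero.mpr (Nat.succ_ne_zero k)
      have hk2 : ((k + 1 : ℕ) : ENNReal) ≠ ⊤ := ENNReal.natCast_ne_top _
      rw [← ENNReal.mul_le_mul_iff_right hk1 hk2, polK_count A z (k + 1)]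
      have hk3 : (0 : ℝ) ≤ ((k + 1 : ℕ) : ℝ) := Nat.cast_nonneg _
      rw [← ENNReal.ofReal_natCast (k + 1), ← ENNReal.ofReal_mul hk3, hOm, aux_succ,
        Finset.sum_div]
      refine (ofReal_sum_le _ _).trans ?_
      refine Finset.sum_le_sum fun i _ => ?_
      refine le_trans ?_ (polK_piece h i k)
      have hnn : (0 : ℝ) ≤ 1 / (((n : ℝ) + 1) * z i) := by
        have := hzpos i
        positivity
      refine le_trans ?_ (mul_le_mul' le_rfl (ih (sec A i) _ (adm_sec h i) k))
      rw [← ENNReal.ofReal_mul hnn]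
      apply ENNReal.ofReal_le_ofReal
      apply le_of_eq
      rw [Fin.prod_univ_succAbove z i]
      exact aux_piece _ _ _ k n (hzpos i)

end Vale.Agent.Lib.P248.H72
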