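import Mathlib
import Vale.Agent.Lib.P248.helper37.Q2Defs

/-!
# P248 pool piece Q2AB-J10 (seat helper72): the tree of an admissible pair is `Ok`

`tree_ok_of` is the induction on the dimension, with the cone inequality in every dimension and
the leaf statements it uses taken as hypotheses, so that it can be combined with any copy of
those leaves.
-/

open MeasureTheory Set

namespace Vale.Agent.Lib.P248.H72

open Vale.Agent.Lib.P248.H37 Vale.Agent.Lib.P248.H37Q

theorem aux_term (n : ℕ) (V Vi Pi zi ali : ℝ) (hV : 0 < V) (hPi : 0 < Pi) (hzi : 0 < zi) :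
    (1 + ((n.factorial : ℝ) * Vi * Pi) / (((n + 1).factorial : ℝ) * V * (zi * Pi)))
        * ((n.factorial : ℝ) * ali / Pi)
      = (n.factorial : ℝ) / (zi * Pi) * ((zi + Vi / (((n : ℝ) + 1) * V)) * ali) := by
  have h1 : (0 : ℝ) < (n : ℝ) + 1 := by positivity
  have h3 : (0 : ℝ) < ((n.factorial : ℕ) : ℝ) := by positivity
  rw [Nat.factorial_succ]
  push_cast
  field_simp

theorem aux_final (n : ℕ) (al P : ℝ) :
    (n.factorial : ℝ) / P * (((n : ℝ) + 1) * al) = ((n + 1).factorial : ℝ) * al / P := by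
  rw [Nat.factorial_succ]
  push_cast
  ring

theorem tree_u_eq (vT_dim_zero : ∀ (A : Set (Fin 0 → ℝ)) (z : Fin 0 → ℝ), vT A z = 1)
    (m : ℕ) (A : Set (Fin m → ℝ)) (z : Fin m → ℝ) :
    (tree m A z).u = (m.factorial : ℝ) * vT A z * ∏ i, z i := by
  cases m with
  | zero =>
    have h1 : (tree 0 A z).u = 1 := rfl
    rw [h1, vT_dim_zero A z, Nat.factorial_zero, Nat.cast_one, one_mul, one_mul,
      Finset.univ_eq_empty, Finset.prod_empty]
  | succ n => rfl

theorem tree_b_eq (vA_dim_zero : ∀ {A : Set (Fin 0 → ℝ)}, Good A → vA A = 1)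
    (m : ℕ) (A : Set (Fin m → ℝ)) (hA : Good A) (z : Fin m → ℝ) :
    (tree m A z).b = (m.factorial : ℝ) * vA A / ∏ i, z i := by
  cases m with
  | zero =>
    have h1 : (tree 0 A z).b = 1 := rfl
    rw [h1, vA_dim_zero hA, Nat.factorial_zero, Nat.cast_one, one_mul,
      Finset.univ_eq_empty, Finset.prod_empty, div_one]
  | succ n => rfl

/-- The tree of an admissible pair satisfies the local inequality at every node, by induction
on the dimension, from the cone inequality and the leaf statements it uses. -/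
theorem tree_ok_of
    (cone_all : ∀ n, ConeStatement n)
    (cone_ineq_convex : ∀ (n : ℕ) (M : Set (Fin (n + 1) → ℝ)), IsCompact M → Convex ℝ M →
      (∀ p ∈ M, ∀ i, 0 ≤ p i) → ∀ y : Fin (n + 1) → ℝ, y ∈ M →
      ∑ i, ENNReal.ofReal (y i) * volume (sec M i) ≤ ((n : ENNReal) + 1) * volume M)
    (sec_posZ : ∀ {n : ℕ} {A : Set (Fin (n + 1) → ℝ)}, Good A → ∀ (z : Fin (n + 1) → ℝ)
      (i : Fin (n + 1)), sec (posZ A z) i = posZ (sec A i) (fun k => z (i.succAbove k)))
    (adm_sec : ∀ {n : ℕ} {A : Set (Fin (n + 1) → ℝ)} {z : Fin (n + 1) → ℝ}, Adm A z →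
      ∀ i : Fin (n + 1), Adm (sec A i) (fun k => z (i.succAbove k)))
    (isCompact_posZ : ∀ {m : ℕ} {A : Set (Fin m → ℝ)} {z : Fin m → ℝ}, Adm A z →
      IsCompact (posZ A z))
    (convex_posZ : ∀ {m : ℕ} (A : Set (Fin m → ℝ)) (z : Fin m → ℝ), Convex ℝ (posZ A z))
    (vT_pos : ∀ {m : ℕ} {A : Set (Fin m → ℝ)} {z : Fin m → ℝ}, Adm A z → 0 < vT A z)
    (volume_posZ_ne_top : ∀ {m : ℕ} {A : Set (Fin m → ℝ)} {z : Fin m → ℝ}, Adm A z →
      volume (posZ A z) ≠ ⊤)
    (vA_pos : ∀ {m : ℕ} {A : Set (Fin m → ℝ)}, Good A → 0 < vA A)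
    (vT_dim_zero : ∀ (A : Set (Fin 0 → ℝ)) (z : Fin 0 → ℝ), vT A z = 1)
    (vA_dim_zero : ∀ {A : Set (Fin 0 → ℝ)}, Good A → vA A = 1)
    (star_mem : ∀ {m : ℕ} {A : Set (Fin m → ℝ)} {z : Fin m → ℝ}, Adm A z →
      ∀ ξ : Fin m → ℝ, (∀ i, 0 ≤ ξ i) → (∀ y ∈ posZ A z, ∑ i, y i * ξ i ≤ 1) →
      (fun i => z i + ξ i) ∈ A) :
    ∀ (m : ℕ) (A : Set (Fin m → ℝ)) (z : Fin m → ℝ), Adm A z → (tree m A z).Ok := by
  intro m
  induction m with
  | zero =>
    intro A z h
    exact trivial
  | succ n ih =>
    intro A z h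
    have hzpos := h.pos
    have hP : 0 < ∏ i, z i := Finset.prod_pos fun i _ => hzpos i
    have hV : 0 < vT A z := vT_pos h
    have hal : 0 < vA A := vA_pos h.good
    have hfac : (0 : ℝ) < ((n + 1).factorial : ℝ) := Nat.cast_pos.mpr (Nat.factorial_pos _)
    have hadm : ∀ i : Fin (n + 1), Adm (sec A i) (fun k => z (i.succAbove k)) :=
      fun i => adm_sec h i
    have hVi_nn : ∀ i : Fin (n + 1), 0 ≤ vT (sec A i) (fun k => z (i.succAbove k)) :=
      fun i => (vT_pos (hadm i)).le
    have hali_nn : ∀ i : Fin (n + 1), 0 ≤ vA (sec A i) := fun i => (vA_pos (hadm i).good).le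
    have hn1 : (0 : ℝ) < (n : ℝ) + 1 := by positivity
    have hξ_nn : ∀ i : Fin (n + 1),
        0 ≤ vT (sec A i) (fun k => z (i.succAbove k)) / (((n : ℝ) + 1) * vT A z) :=
      fun i => div_nonneg (hVi_nn i) (mul_pos hn1 hV).le
    -- the cone inequality on the positive part of the polar
    have hcone1 : ∀ y ∈ posZ A z,
        ∑ i, y i * vT (sec A i) (fun k => z (i.succAbove k)) ≤ ((n : ℝ) + 1) * vT A z := by
      intro y hy
      have h1 := cone_ineq_convex n (posZ A z) (isCompact_posZ h) (convex_posZ A z)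
        (fun p hp i => hp.1 i) y hy
      have h2 : ∀ i, volume (sec (posZ A z) i)
          = ENNReal.ofReal (vT (sec A i) (fun k => z (i.succAbove k))) := by
        intro i
        rw [sec_posZ h.good z i]
        exact (ENNReal.ofReal_toReal (volume_posZ_ne_top (hadm i))).symm
      have h3 : volume (posZ A z) = ENNReal.ofReal (vT A z) :=
        (ENNReal.ofReal_toReal (volume_posZ_ne_top h)).symm
      rw [h3] at h1
      have h4 : ∑ i, ENNReal.ofReal (y i)
            * ENNReal.ofReal (vT (sec A i) (fun k => z (i.succAbove k)))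
          ≤ ((n : ENNReal) + 1) * ENNReal.ofReal (vT A z) := by
        refine le_trans (le_of_eq ?_) h1
        exact Finset.sum_congr rfl fun i _ => by rw [h2 i]
      exact cone_to_real n (fun i => hy.1 i) hVi_nn hV.le h4
    have hT : ∀ y ∈ posZ A z, ∑ i, y i
        * (vT (sec A i) (fun k => z (i.succAbove k)) / (((n : ℝ) + 1) * vT A z)) ≤ 1 := by
      intro y hy
      have h1 := hcone1 y hy
      have h2 : ∑ i, y i * (vT (sec A i) (fun k => z (i.succAbove k)) / (((n : ℝ) + 1) * vT A z))
          = (∑ i, y i * vT (sec A i) (fun k => z (i.succAbove k))) / (((n : ℝ) + 1) * vT A z) := by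
        rw [Finset.sum_div]
        exact Finset.sum_congr rfl fun i _ => (mul_div_assoc _ _ _).symm
      rw [h2, div_le_one (mul_pos hn1 hV)]
      exact h1
    -- the point of `A` given by the cone inequality
    have hp : (fun i => z i
        + vT (sec A i) (fun k => z (i.succAbove k)) / (((n : ℝ) + 1) * vT A z)) ∈ A :=
      star_mem h _ hξ_nn hT
    -- the cone inequality of `A` at that point
    have hcone2 : ∑ i, (z i
          + vT (sec A i) (fun k => z (i.succAbove k)) / (((n : ℝ) + 1) * vT A z)) * vA (sec A i)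
        ≤ ((n : ℝ) + 1) * vA A := by
      have h1 := cone_all n A h.good.closed h.good.convex h.good.nonneg h.good.down _ hp
      have h2 : ∀ i, volume (sec A i) = ENNReal.ofReal (vA (sec A i)) := fun i =>
        (ENNReal.ofReal_toReal (good_vol_lt_top (good_sec h.good i)).ne).symm
      have h3 : volume A = ENNReal.ofReal (vA A) :=
        (ENNReal.ofReal_toReal (good_vol_lt_top h.good).ne).symm
      rw [h3] at h1
      have h4 : ∑ i, ENNReal.ofReal (z i
            + vT (sec A i) (fun k => z (i.succAbove k)) / (((n : ℝ) + 1) * vT A z))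
            * ENNReal.ofReal (vA (sec A i))
          ≤ ((n : ENNReal) + 1) * ENNReal.ofReal (vA A) := by
        refine le_trans (le_of_eq ?_) h1
        exact Finset.sum_congr rfl fun i _ => by rw [← h2 i]; rfl
      exact cone_to_real n (fun i => add_nonneg (hzpos i).le (hξ_nn i)) hali_nn hal.le h4
    refine ⟨?_, ?_, fun i => ih (sec A i) _ (hadm i), ?_⟩
    · exact mul_pos (mul_pos hfac hV) hP
    · exact div_pos (mul_pos hfac hal) hP
    · show ∑ i, (1 + (tree n (sec A i) (fun k => z (i.succAbove k))).u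
            / (((n + 1).factorial : ℝ) * vT A z * ∏ i, z i))
          * (tree n (sec A i) (fun k => z (i.succAbove k))).b
        ≤ ((n + 1).factorial : ℝ) * vA A / ∏ i, z i
      have hterm : ∀ i, (1 + (tree n (sec A i) (fun k => z (i.succAbove k))).u
            / (((n + 1).factorial : ℝ) * vT A z * ∏ i, z i))
          * (tree n (sec A i) (fun k => z (i.succAbove k))).b
          = (n.factorial : ℝ) / (∏ i, z i) * ((z i
            + vT (sec A i) (fun k => z (i.succAbove k)) / (((n : ℝ) + 1) * vT A z))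
              * vA (sec A i)) := by
        intro i
        rw [tree_u_eq vT_dim_zero, tree_b_eq vA_dim_zero _ _ (hadm i).good,
          Fin.prod_univ_succAbove z i]
        exact aux_term n (vT A z) _ _ (z i) (vA (sec A i)) hV
          (Finset.prod_pos fun j _ => hzpos _) (hzpos i)
      rw [Finset.sum_congr rfl fun i _ => hterm i, ← Finset.mul_sum, ← aux_final]
      exact mul_le_mul_of_nonneg_left hcone2 (div_nonneg (Nat.cast_nonneg _) hP.le)

end Vale.Agent.Lib.P248.H72
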